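import Vale.Agent.P011.E6.Herm

/-!
The linear maps which multiply the cubic norm by a constant are compatible with the product
`cross (adj x) (adj y)`.
-/

namespace Vale.Agent.P011.E6

open Vale.Agent.P011.MPQ Vale.Agent.P011.D4 Vale.Agent.P011.D4.Oct Alb

section clo

variable {F : Type} [Field F] [CharZero F] {a b c a' b' c' : Fˣ}
  {φ : Alb a b c ≃ₗ[F] Alb a' b' c'} {μ : F}

theorem tf_cross_mapμ (h : ∀ x, cub (φ x) = μ * cub x) (x y z : Alb a b c) :
    tf (cross (φ x) (φ y)) (φ z) = μ * tf (cross x y) z := by
  have h0 : ∀ x y, tf (adj (φ x)) (φ y) = μ * tf (adj x) y := fun x y =>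
    tf_adj_of_cub (φ := φ.toLinearMap) (μ := μ) h x y
  have h1 := h0 (x + y) z
  rw [map_add, adj_add, adj_add, tf_add_left, tf_add_left, tf_add_left, tf_add_left, h0, h0] at h1
  linear_combination h1

/-- The solution of `x × y' = y`, up to a scalar. -/
theorem cross_solve {x : Alb a b c} (h0 : cub x ≠ 0) (y : Alb a b c) :
    cross x ((2 : F) • cross (adj x) y - tf x y • x) = (2 * cub x) • y := by
  have h1 := cross_adj_cross (adj x) y
  rw [adj_adj, cub_adj, cross_smul_left, tf_smul_left] at h1
  have h2 : cross x (cross (adj x) y) = cub x • y + tf x y • adj x := by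
    have h3 : cub x • cross x (cross (adj x) y) = cub x • (cub x • y + tf x y • adj x) := by
      rw [h1]
      module
    exact smul_right_injective _ h0 h3
  rw [cross_sub_right, cross_smul_right, cross_smul_right, Alb.cross_self, h2]
  module

theorem cross_adj_map_aux (h : ∀ x, cub (φ x) = μ * cub x) {x : Alb a b c} (h0 : cub x ≠ 0)
    (y : Alb a b c) :
    cross (adj (φ x)) (adj (φ y)) = μ • φ (cross (adj x) (adj y)) := by
  set z : Alb a b c := (2 : F) • cross (adj x) (adj y) - tf x (adj y) • x with hz
  have h1 : cross x z = (2 * cub x) • adj y := cross_solve h0 (adj y)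
  have h2 : cross (φ x) (φ z) = (2 * cub x) • adj (φ y) := by
    apply eq_of_tf
    intro w
    obtain ⟨w, rfl⟩ := φ.surjective w
    have h3 := tf_adj_of_cub (φ := φ.toLinearMap) (μ := μ) h y w
    have h3' : tf (adj (φ y)) (φ w) = μ * tf (adj y) w := h3
    rw [tf_cross_mapμ h, h1, tf_smul_left, tf_smul_left, h3']
    ring
  have h3 := cross_adj_cross (φ x) (φ z)
  rw [h2, cross_smul_right, h] at h3
  have h4 := cross_adj_cross x z
  rw [h1, cross_smul_right] at h4
  have h5 : tf (adj (φ x)) (φ z) = μ * tf (adj x) z :=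
    tf_adj_of_cub (φ := φ.toLinearMap) (μ := μ) h x z
  have h6 := congrArg (fun t => μ • φ t) h4
  simp only [map_smul, map_add] at h6
  rw [h5] at h3
  have h7 : (2 * cub x) • cross (adj (φ x)) (adj (φ y)) =
      (2 * cub x) • (μ • φ (cross (adj x) (adj y))) := by
    rw [h3, smul_comm, h6]
    module
  exact smul_right_injective _ (mul_ne_zero two_ne_zero h0) h7

/-- **Compatibility with the product `x# × y#`.** -/
theorem cross_adj_map (h : ∀ x, cub (φ x) = μ * cub x) (x y : Alb a b c) :
    cross (adj (φ x)) (adj (φ y)) = μ • φ (cross (adj x) (adj y)) := by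
  set e : Alb a b c := one a b c 1 with he
  have he1 : cub e ≠ 0 := by
    rw [he, cub_one]
    exact inv_ne_zero (gam_ne _)
  -- the cubic polynomial
  have hcub : ∀ t : F, cub (x + t • e) =
      cub x + t * tf (adj x) e + t ^ 2 * tf x (adj e) + t ^ 3 * cub e := by
    intro t
    rw [cub_add, adj_smul, cub_smul, tf_smul_right, tf_smul_right]
  set f0 := cross (adj (φ x)) (adj (φ y)) - μ • φ (cross (adj x) (adj y)) with hf0
  set f1 := cross (cross (φ x) (φ e)) (adj (φ y)) - μ • φ (cross (cross x e) (adj y)) with hf1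
  set f2 := cross (adj (φ e)) (adj (φ y)) - μ • φ (cross (adj e) (adj y)) with hf2
  have key : ∀ t : F, cub (x + t • e) ≠ 0 → f0 + t • f1 + t ^ 2 • f2 = 0 := by
    intro t ht
    have h1 := cross_adj_map_aux h ht y
    rw [map_add, map_smul, adj_add, adj_add, adj_smul, adj_smul, cross_smul_right,
      cross_smul_right, cross_add_left, cross_add_left, cross_add_left, cross_add_left,
      cross_smul_left, cross_smul_left, cross_smul_left, cross_smul_left, map_add, map_add,
      map_smul, map_smul, ← sub_eq_zero] at h1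
    rw [← h1, hf0, hf1, hf2]
    module
  -- choose a good scalar
  obtain ⟨t, h1, h2, h3⟩ : ∃ t : F, cub (x + t • e) ≠ 0 ∧ cub (x + (-t) • e) ≠ 0 ∧
      cub (x + (2 * t) • e) ≠ 0 := by
    classical
    set p : Polynomial F := Polynomial.C (cub x) + Polynomial.C (tf (adj x) e) * Polynomial.X +
      Polynomial.C (tf x (adj e)) * Polynomial.X ^ 2 + Polynomial.C (cub e) * Polynomial.X ^ 3
      with hp
    have hpe : ∀ t : F, p.eval t = cub (x + t • e) := by
      intro t
      rw [hcub, hp]
      simp only [Polynomial.eval_add, Polynomial.eval_mul, Polynomial.eval_C, Polynomial.eval_X,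
        Polynomial.eval_pow]
      ring
    have hp0 : p ≠ 0 := by
      intro h0
      have h1 : p.coeff 3 = cub e := by
        rw [hp]
        simp
      rw [h0, Polynomial.coeff_zero] at h1
      exact he1 h1.symm
    set q : Polynomial F := p * p.comp (-Polynomial.X) * p.comp (2 * Polynomial.X) with hq
    have hq0 : q ≠ 0 := by
      refine mul_ne_zero (mul_ne_zero hp0 ?_) ?_
      · intro h0
        have h1 : (p.comp (-Polynomial.X)).comp (-Polynomial.X) = 0 := by rw [h0]; simp
        rw [Polynomial.comp_assoc] at h1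
        simp at h1
        exact hp0 h1
      · intro h0
        have h1 : (p.comp (2 * Polynomial.X)).comp (Polynomial.C (2⁻¹ : F) * Polynomial.X) = 0 := by
          rw [h0]; simp
        rw [Polynomial.comp_assoc] at h1
        have h2 : (2 * Polynomial.X : Polynomial F).comp (Polynomial.C (2⁻¹ : F) * Polynomial.X) =
            Polynomial.X := by
          have h3 : (2 : Polynomial F) = Polynomial.C 2 := rfl
          rw [h3]
          simp only [Polynomial.mul_comp, Polynomial.C_comp, Polynomial.X_comp]
          rw [← mul_assoc, ← Polynomial.C_mul, mul_inv_cancel₀ two_ne_zero, Polynomial.C_1, one_mul]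
        rw [h2, Polynomial.comp_X] at h1
        exact hp0 h1
    obtain ⟨t, ht⟩ : ∃ t : F, q.eval t ≠ 0 := by
      by_contra hne
      push Not at hne
      exact hq0 (Polynomial.funext fun t => by rw [hne, Polynomial.eval_zero])
    rw [hq, Polynomial.eval_mul, Polynomial.eval_mul, Polynomial.eval_comp, Polynomial.eval_comp] at ht
    have h1 := (mul_ne_zero_iff.1 ht)
    have h2 := (mul_ne_zero_iff.1 h1.1)
    refine ⟨t, ?_, ?_, ?_⟩
    · rw [← hpe]
      exact h2.1
    · rw [← hpe]
      simpa using h2.2
    · rw [← hpe]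
      simpa using h1.2
  have k1 := key _ h1
  have k2 := key _ h2
  have k3 := key _ h3
  have h4 : (6 : F) • f0 = 0 := by
    have e1 : (6 : F) • f0 = (6 : F) • (f0 + t • f1 + t ^ 2 • f2) +
        (2 : F) • (f0 + (-t) • f1 + (-t) ^ 2 • f2) -
        (2 : F) • (f0 + (2 * t) • f1 + (2 * t) ^ 2 • f2) := by
      module
    rw [e1, k1, k2, k3]
    simp
  have h5 : f0 = 0 := by
    rcases smul_eq_zero.1 h4 with h6 | h6
    · norm_num at h6
    · exact h6
  exact sub_eq_zero.1 h5

/-- **Compatibility with the product `x# × y#`.** -/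
theorem cross_adj {φ : Alb a b c ≃ₗ[F] Alb a' b' c'} (h : ∀ x, cub (φ x) = cub x)
    (x y : Alb a b c) : cross (adj (φ x)) (adj (φ y)) = φ (cross (adj x) (adj y)) := by
  have h1 := cross_adj_map (φ := φ) (μ := 1) (fun x => by rw [one_mul]; exact h x) x y
  rwa [one_smul] at h1

end clo

end Vale.Agent.P011.E6
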