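import Vale.Agent.P011.E6I.Defs
import Vale.Agent.P011.E6.Ids

/-!
A space of quaternionic hermitian matrices of degree three of dimension at least six contains an
isotropic vector of the cubic norm.
-/

namespace Vale.Agent.P011.E6I

open Vale.Agent.P011.MPQ Vale.Agent.P011.D4 Vale.Agent.P011.D4.Oct Vale.Agent.P011.E6 Alb

section iso

variable {F : Type} [Field F] {a b c : Fˣ}

/-- The standard generator. -/
def gq (a b : Fˣ) : Qt a b := ⟨0, 1, 0, 0⟩

theorem cub_quat (d2 d3 : F) (x1 x2 x3 : Qt a b) :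
    cub (⟨0, d2, d3, ⟨x1, 0⟩, ⟨x2, 0⟩, ⟨x3, 0⟩⟩ : Alb a b c) =
      -(d2 * nrd x2) - d3 * nrd x3 + 2 * (x1 * (x2 * x3)).re := by
  have h1 : ∀ x : Qt a b, Oct.norm (⟨x, 0⟩ : Oct a b c) = nrd x := fun x => by
    simp [Oct.norm, nrd]
  have h2 : ∀ x y : Qt a b, (⟨x, 0⟩ : Oct a b c) * ⟨y, 0⟩ = ⟨x * y, 0⟩ := fun x y => by
    ext1
    · rw [fst_mul]; simp
    · rw [snd_mul]; simp
  have h3 : ∀ x : Qt a b, bil (⟨x, 0⟩ : Oct a b c) 1 = 2 * x.re := fun x => by
    rw [bil_eq]; simp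
  rw [cub]
  simp only [h1, h2, h3, mul_assoc]
  ring

theorem nrd_gq (t : F) (y : Qt a b) : nrd (y * gq a b + t • y) = (t ^ 2 - a) * nrd y := by
  simp only [nrd, gq, QuaternionAlgebra.re_add, QuaternionAlgebra.imI_add,
    QuaternionAlgebra.imJ_add, QuaternionAlgebra.imK_add, QuaternionAlgebra.re_mul,
    QuaternionAlgebra.imI_mul, QuaternionAlgebra.imJ_mul, QuaternionAlgebra.imK_mul,
    QuaternionAlgebra.re_smul, QuaternionAlgebra.imI_smul,
    QuaternionAlgebra.imJ_smul, QuaternionAlgebra.imK_smul, smul_eq_mul]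
  ring

theorem nrd_gq' (t : F) (y : Qt a b) : nrd (-(gq a b * y) + t • y) = (t ^ 2 - a) * nrd y := by
  simp only [nrd, gq, QuaternionAlgebra.re_add, QuaternionAlgebra.imI_add,
    QuaternionAlgebra.imJ_add, QuaternionAlgebra.imK_add, QuaternionAlgebra.re_mul,
    QuaternionAlgebra.imI_mul, QuaternionAlgebra.imJ_mul, QuaternionAlgebra.imK_mul,
    QuaternionAlgebra.re_smul, QuaternionAlgebra.imI_smul, QuaternionAlgebra.re_neg,
    QuaternionAlgebra.imI_neg, QuaternionAlgebra.imJ_neg, QuaternionAlgebra.imK_neg,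
    QuaternionAlgebra.imJ_smul, QuaternionAlgebra.imK_smul, smul_eq_mul]
  ring

theorem gq_mul_gq : gq a b * gq a b = (a : F) • (1 : Qt a b) := by
  ext <;> simp [gq]

theorem mul_gq (t : F) (y z : Qt a b) :
    (y * gq a b + t • y) * (-(gq a b * z) + t • z) = (t ^ 2 - a) • (y * z) := by
  have h : (y * gq a b) * (gq a b * z) = (a : F) • (y * z) := by
    rw [← mul_assoc, mul_assoc y, gq_mul_gq, mul_smul_comm, mul_one, smul_mul_assoc]
  rw [add_mul, mul_add, mul_add, mul_neg, h, smul_mul_assoc, smul_mul_assoc, mul_smul_comm,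
    mul_smul_comm, mul_neg, ← mul_assoc]
  module

theorem iso_key' {S T : Alb a b c} (h1 : S.x1.snd = 0) (h2 : S.x2.snd = 0) (h3 : S.x3.snd = 0)
    (k1 : T.x1.snd = 0) (k2 : T.x2.snd = 0) (k3 : T.x3.snd = 0) (hd : S.d1 = 0) (kd : T.d1 = 0)
    (hx2 : S.x2.fst = T.x2.fst * gq a b) (hx3 : S.x3.fst = -(gq a b * T.x3.fst)) :
    ∃ β : F, ∀ t : F, cub (S + t • T) = (t ^ 2 - a) * (β + t * cub T) := by
  obtain ⟨sd1, sd2, sd3, ⟨x1, x1'⟩, ⟨x2, x2'⟩, ⟨x3, x3'⟩⟩ := S
  obtain ⟨td1, td2, td3, ⟨y1, y1'⟩, ⟨y2, y2'⟩, ⟨y3, y3'⟩⟩ := T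
  simp only at h1 h2 h3 k1 k2 k3 hd kd hx2 hx3
  subst h1 h2 h3 k1 k2 k3 hd kd hx2 hx3
  refine ⟨-(sd2 * nrd y2) - sd3 * nrd y3 + 2 * (x1 * (y2 * y3)).re, fun t => ?_⟩
  have e : (⟨0, sd2, sd3, ⟨x1, 0⟩, ⟨y2 * gq a b, 0⟩, ⟨-(gq a b * y3), 0⟩⟩ : Alb a b c) +
      t • ⟨0, td2, td3, ⟨y1, 0⟩, ⟨y2, 0⟩, ⟨y3, 0⟩⟩ =
      ⟨0, sd2 + t * td2, sd3 + t * td3, ⟨x1 + t • y1, 0⟩, ⟨y2 * gq a b + t • y2, 0⟩,
        ⟨-(gq a b * y3) + t • y3, 0⟩⟩ := by
    ext1
    · simp
    · simp
    · simp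
    · ext1 <;> simp
    · ext1 <;> simp
    · ext1 <;> simp
  rw [e, cub_quat, cub_quat, nrd_gq, nrd_gq', mul_gq, mul_smul_comm, add_mul x1, smul_mul_assoc,
    QuaternionAlgebra.re_smul, QuaternionAlgebra.re_add, QuaternionAlgebra.re_smul]
  simp only [smul_eq_mul]
  ring

theorem nrd_gq_ne (hab : Aniso a b) (t : F) : t ^ 2 - (a : F) ≠ 0 := by
  intro h
  have h1 : nrd (gq a b + t • (1 : Qt a b)) = 0 := by
    have := nrd_gq t (1 : Qt a b)
    rwa [one_mul, h, zero_mul] at this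
  have h2 := congrArg (fun q : Qt a b => q.imI) (hab _ h1)
  simp [gq] at h2

/-- **Isotropic vectors.** -/
theorem exists_iso' (hab : Aniso a b) (U : Submodule F (Alb a b c))
    (hU : ∀ x ∈ U, x.x1.snd = 0 ∧ x.x2.snd = 0 ∧ x.x3.snd = 0) (h6 : 6 ≤ Module.finrank F U) :
    ∃ S ∈ U, S ≠ 0 ∧ cub S = 0 := by
  -- the linear map whose kernel we use
  set f : (U × U) →ₗ[F] (F × F) × (Qt a b × Qt a b) :=
    { toFun := fun p => (((p.1 : Alb a b c).d1, (p.2 : Alb a b c).d1),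
        ((p.1 : Alb a b c).x2.fst - (p.2 : Alb a b c).x2.fst * gq a b,
          (p.1 : Alb a b c).x3.fst + gq a b * (p.2 : Alb a b c).x3.fst))
      map_add' := fun p q => by
        simp only [Prod.fst_add, Prod.snd_add, Submodule.coe_add, d1_add, x2_add, x3_add,
          fst_add, Prod.mk_add_mk, add_mul, mul_add]
        refine Prod.ext rfl (Prod.ext ?_ ?_)
        · simp only
          abel
        · simp only
          abel
      map_smul' := fun t p => by
        simp only [Prod.smul_fst, Prod.smul_snd, Submodule.coe_smul, d1_smul, x2_smul, x3_smul,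
          fst_smul, Prod.smul_mk, smul_eq_mul, RingHom.id_apply, smul_mul_assoc, mul_smul_comm,
          smul_sub, smul_add] } with hf
  have hfin : Module.Finite F U := by
    apply Module.finite_of_finrank_pos
    omega
  have hq : Module.finrank F (Qt a b) = 4 := QuaternionAlgebra.finrank_eq_four (a : F) 0 (b : F)
  have hqf : Module.Finite F (Qt a b) := by
    apply Module.finite_of_finrank_pos
    omega
  have h1 : Module.finrank F ((F × F) × (Qt a b × Qt a b)) < Module.finrank F (U × U) := by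
    rw [Module.finrank_prod, Module.finrank_prod, Module.finrank_prod, Module.finrank_prod, hq,
      Module.finrank_self]
    omega
  obtain ⟨⟨S, T⟩, hST, hne⟩ := Submodule.exists_mem_ne_zero_of_ne_bot
    (LinearMap.ker_ne_bot_of_finrank_lt h1 : LinearMap.ker f ≠ ⊥)
  rw [LinearMap.mem_ker, hf, LinearMap.coe_mk, AddHom.coe_mk, Prod.mk_eq_zero, Prod.mk_eq_zero,
    Prod.mk_eq_zero] at hST
  obtain ⟨⟨hd, kd⟩, hx2, hx3⟩ := hST
  simp only at hd kd hx2 hx3
  have hx2' : (S : Alb a b c).x2.fst = (T : Alb a b c).x2.fst * gq a b := sub_eq_zero.1 hx2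
  have hx3' : (S : Alb a b c).x3.fst = -(gq a b * (T : Alb a b c).x3.fst) :=
    eq_neg_of_add_eq_zero_left hx3
  obtain ⟨s1, s2, s3⟩ := hU S S.2
  obtain ⟨t1, t2, t3⟩ := hU T T.2
  obtain ⟨β, hβ⟩ := iso_key' s1 s2 s3 t1 t2 t3 hd kd hx2' hx3'
  by_cases hα : cub (T : Alb a b c) = 0
  · by_cases hT : (T : Alb a b c) = 0
    · refine ⟨S, S.2, ?_, ?_⟩
      · intro hS
        apply hne
        exact Prod.ext (Subtype.ext hS) (Subtype.ext hT)
      · rw [hT] at hx2' hx3'
        simp only [x2_zero, x3_zero, fst_zero, zero_mul, mul_zero, neg_zero] at hx2' hx3'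
        have h2 : (S : Alb a b c).x2 = 0 := by ext1 <;> assumption
        have h3 : (S : Alb a b c).x3 = 0 := by ext1 <;> assumption
        rw [cub, hd, h2, h3]
        simp
    · exact ⟨T, T.2, hT, hα⟩
  · set t : F := -β / cub (T : Alb a b c) with ht
    refine ⟨S + t • T, U.add_mem S.2 (U.smul_mem _ T.2), ?_, ?_⟩
    · intro h0
      apply hα
      have e2 : (T : Alb a b c).x2.fst * gq a b + t • (T : Alb a b c).x2.fst = 0 := by
        rw [← hx2']
        have := congrArg (fun x : Alb a b c => x.x2.fst) h0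
        simpa using this
      have e3 : -(gq a b * (T : Alb a b c).x3.fst) + t • (T : Alb a b c).x3.fst = 0 := by
        rw [← hx3']
        have := congrArg (fun x : Alb a b c => x.x3.fst) h0
        simpa using this
      have n2 := nrd_gq t (T : Alb a b c).x2.fst
      have n3 := nrd_gq' t (T : Alb a b c).x3.fst
      have hz : nrd (0 : Qt a b) = 0 := by simp [nrd]
      rw [e2, hz] at n2
      rw [e3, hz] at n3
      have m2 : (T : Alb a b c).x2.fst = 0 :=
        hab _ ((mul_eq_zero.1 n2.symm).resolve_left (nrd_gq_ne hab t))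
      have m3 : (T : Alb a b c).x3.fst = 0 :=
        hab _ ((mul_eq_zero.1 n3.symm).resolve_left (nrd_gq_ne hab t))
      have h2 : (T : Alb a b c).x2 = 0 := by ext1 <;> assumption
      have h3 : (T : Alb a b c).x3 = 0 := by ext1 <;> assumption
      rw [cub, kd, h2, h3]
      simp
    · rw [hβ, ht, div_mul_cancel₀ _ hα, add_neg_cancel, mul_zero]

end iso

end Vale.Agent.P011.E6I
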