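import Vale.Agent.P011.E6I.Gal
import Vale.Agent.P011.D4.R1
import Vale.Agent.P011.E6I.H493.Iso
import Vale.Agent.P011.E6I.H493.Clo

/-!
Dimensions: the space `V ∩ hV` has dimension at least three, and its dimension is divisible by
three.
-/

namespace Vale.Agent.P011.E6I

open Vale.Agent.P011.MPQ Vale.Agent.P011.D4 Vale.Agent.P011.D4.Oct Vale.Agent.P011.E6 Alb

section dim

variable {F : Type} [Field F] {a b c : Fˣ}

/-- The hermitian matrices, as a product. -/
def albProd : Alb a b c ≃ₗ[F] (F × F × F) × (Oct a b c × Oct a b c × Oct a b c) where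
  toFun x := ((x.d1, x.d2, x.d3), (x.x1, x.x2, x.x3))
  invFun p := ⟨p.1.1, p.1.2.1, p.1.2.2, p.2.1, p.2.2.1, p.2.2.2⟩
  map_add' _ _ := rfl
  map_smul' _ _ := rfl
  left_inv _ := rfl
  right_inv _ := rfl

instance : Module.Finite F (Alb a b c) := Module.Finite.equiv albProd.symm

theorem finrank_alb : Module.finrank F (Alb a b c) = 27 := by
  rw [LinearEquiv.finrank_eq albProd, Module.finrank_prod, Module.finrank_prod,
    Module.finrank_prod, Module.finrank_prod, Module.finrank_prod, finrank_oct,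
    Module.finrank_self]

end dim

section V

variable {k L : Type} [Field k] [Field L] [Algebra k L] {a b c : kˣ}

/-- The hermitian matrices over the quaternions, as a product. -/
def vsubProd : Vsub L a b c ≃ₗ[L] (L × L × L) × (Qt (up L a) (up L b) × Qt (up L a) (up L b) ×
    Qt (up L a) (up L b)) where
  toFun x := (((x : AlbL L a b c).d1, (x : AlbL L a b c).d2, (x : AlbL L a b c).d3),
    ((x : AlbL L a b c).x1.fst, (x : AlbL L a b c).x2.fst, (x : AlbL L a b c).x3.fst))
  invFun p := ⟨⟨p.1.1, p.1.2.1, p.1.2.2, ⟨p.2.1, 0⟩, ⟨p.2.2.1, 0⟩, ⟨p.2.2.2, 0⟩⟩, rfl, rfl, rfl⟩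
  map_add' _ _ := rfl
  map_smul' _ _ := rfl
  left_inv x := by
    obtain ⟨⟨d1, d2, d3, ⟨x1, x1'⟩, ⟨x2, x2'⟩, ⟨x3, x3'⟩⟩, h1, h2, h3⟩ := x
    simp only at h1 h2 h3
    subst h1 h2 h3
    rfl
  right_inv _ := rfl

theorem finrank_vsub : Module.finrank L (Vsub L a b c) = 15 := by
  have hq : Module.finrank L (Qt (up L a) (up L b)) = 4 :=
    QuaternionAlgebra.finrank_eq_four ((up L a : Lˣ) : L) 0 ((up L b : Lˣ) : L)
  have hqf : Module.Finite L (Qt (up L a) (up L b)) := by
    apply Module.finite_of_finrank_pos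
    omega
  rw [LinearEquiv.finrank_eq vsubProd, Module.finrank_prod, Module.finrank_prod,
    Module.finrank_prod, Module.finrank_prod, Module.finrank_prod, hq,
    Module.finrank_self]

/-- The dimension of `V ∩ hV` is at least three. -/
theorem three_le (h : AlbL L a b c ≃ₗ[L] AlbL L a b c) :
    3 ≤ Module.finrank L (Vsub L a b c ⊓ (Vsub L a b c).map (h : AlbL L a b c →ₗ[L] AlbL L a b c) :
      Submodule L (AlbL L a b c)) := by
  have h1 := Submodule.finrank_sup_add_finrank_inf_eq (Vsub L a b c)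
    ((Vsub L a b c).map (h : AlbL L a b c →ₗ[L] AlbL L a b c))
  have h2 := Submodule.finrank_le
    (Vsub L a b c ⊔ (Vsub L a b c).map (h : AlbL L a b c →ₗ[L] AlbL L a b c))
  have h3 := LinearEquiv.finrank_map_eq h (Vsub L a b c)
  have h4 : Module.finrank L
      ((Vsub L a b c).map (h : AlbL L a b c →ₗ[L] AlbL L a b c)) = 15 := by
    rw [← finrank_vsub (L := L) (a := a) (b := b) (c := c)]
    exact h3
  rw [h4, finrank_vsub] at h1
  rw [finrank_alb] at h2
  omega

end V

section semi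

variable {k L : Type} [Field k] [CharZero k] [Field L] [Algebra k L] {ρ : L ≃ₐ[k] L} {lam : kˣ}

/-- The dimension of a space with a semilinear map `φ`, such that `φ ^ 3` is the multiplication by
`lam`, is divisible by three if `lam` is not a norm. -/
theorem three_dvd (h3 : Module.finrank k L = 3) (hρ : ρ ≠ 1)
    (hlam : ∀ x : L, Algebra.norm k x ≠ lam) {U : Type} [AddCommGroup U] [Module L U]
    [Module.Finite L U] (φ : U → U) (hadd : ∀ x y, φ (x + y) = φ x + φ y)
    (hsmul : ∀ (t : L) x, φ (t • x) = ρ t • φ x)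
    (hφ : ∀ x, φ (φ (φ x)) = algebraMap k L lam • x) : 3 ∣ Module.finrank L U := by
  classical
  have hfk : Module.Finite k L := Module.finite_of_finrank_pos (by omega)
  set n := Module.finrank L U with hn
  set e := Module.finBasis L U with he
  have hρ3 := rho3 h3 hρ
  -- the matrix of `φ`
  set A : Matrix (Fin n) (Fin n) L := Matrix.of fun i j => e.repr (φ (e j)) i with hA
  have h0 : φ 0 = 0 := by
    have := hadd 0 0
    rw [add_zero] at this
    exact left_eq_add.1 this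
  have hrep : ∀ x, ⇑(e.repr (φ x)) = A.mulVec (fun i => ρ (e.repr x i)) := by
    intro x
    have hx : φ x = ∑ j, ρ (e.repr x j) • φ (e j) := by
      conv_lhs => rw [← e.sum_repr x]
      have : ∀ s : Finset (Fin n), φ (∑ j ∈ s, e.repr x j • e j) =
          ∑ j ∈ s, ρ (e.repr x j) • φ (e j) := by
        intro s
        induction s using Finset.induction_on with
        | empty => simp [h0]
        | insert j s hj ih => rw [Finset.sum_insert hj, Finset.sum_insert hj, hadd, hsmul, ih]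
      exact this Finset.univ
    ext i
    rw [hx, map_sum, Finsupp.finsetSum_apply, Matrix.mulVec, dotProduct]
    refine Finset.sum_congr rfl fun j _ => ?_
    rw [map_smul, Finsupp.smul_apply, hA, Matrix.of_apply, smul_eq_mul, mul_comm]
  have hmap : ∀ (M : Matrix (Fin n) (Fin n) L) (v : Fin n → L),
      (fun i => ρ (M.mulVec v i)) = (M.map ρ).mulVec (fun i => ρ (v i)) := by
    intro M v
    ext i
    simp [Matrix.mulVec, dotProduct]
  have h4 : A * A.map ρ * (A.map ρ).map ρ = algebraMap k L lam • (1 : Matrix (Fin n) (Fin n) L) := by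
    apply Matrix.ext_of_mulVec_single
    intro j
    have h5 := hrep (φ (φ (e j)))
    rw [hφ] at h5
    have h6 : (fun i => ρ (e.repr (φ (φ (e j))) i)) =
        (A.map ρ).mulVec (((A.map ρ).map ρ).mulVec (fun i => ρ (ρ (ρ (e.repr (e j) i))))) := by
      rw [hrep (φ (e j)), hmap]
      congr 1
      rw [hrep (e j)]
      rw [← hmap]
      ext i
      rw [← hmap]
    rw [h6] at h5
    have h7 : (fun i => ρ (ρ (ρ (e.repr (e j) i)))) = Pi.single j (1 : L) := by
      ext i
      rw [hρ3, e.repr_self, Finsupp.single_eq_pi_single]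
    rw [h7, Matrix.mulVec_mulVec, Matrix.mulVec_mulVec] at h5
    rw [← h5, map_smul, e.repr_self]
    ext i
    by_cases hij : i = j
    · subst hij
      simp
    · simp [hij]
  have h5 := congrArg Matrix.det h4
  rw [Matrix.det_mul, Matrix.det_mul, Matrix.det_smul, Matrix.det_one, mul_one,
    Fintype.card_fin] at h5
  have h6 : ∀ M : Matrix (Fin n) (Fin n) L, (M.map ρ).det = ρ M.det := fun M => by
    rw [AlgEquiv.map_det]
    rfl
  rw [h6, h6, h6, ← norm_rho h3 hρ, ← map_pow] at h5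
  have h7 : Algebra.norm k A.det = (lam : k) ^ n := (algebraMap k L).injective h5
  have h8 : ∀ t : k, Algebra.norm k (algebraMap k L t) = t ^ 3 := fun t => by
    rw [Algebra.norm_algebraMap, h3]
  have hl : (lam : k) ≠ 0 := lam.ne_zero
  by_contra hnd
  have h9 : n % 3 = 1 ∨ n % 3 = 2 := by omega
  rcases h9 with h9 | h9
  · obtain ⟨m, hm⟩ : ∃ m, n = 3 * m + 1 := ⟨n / 3, by omega⟩
    apply hlam (A.det * algebraMap k L (((lam : k) ^ m)⁻¹))
    rw [map_mul, h7, h8, hm]
    field_simp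
    ring
  · obtain ⟨m, hm⟩ : ∃ m, n = 3 * m + 2 := ⟨n / 3, by omega⟩
    have hA0 : Algebra.norm k A.det ≠ 0 := by rw [h7]; exact pow_ne_zero _ hl
    have hA1 : A.det ≠ 0 := by
      intro h0
      rw [h0] at hA0
      exact hA0 Algebra.norm_zero
    have h10 : Algebra.norm k A.det⁻¹ = ((lam : k) ^ n)⁻¹ := by
      apply eq_inv_of_mul_eq_one_left
      rw [← h7, ← map_mul, inv_mul_cancel₀ hA1, map_one]
    apply hlam (A.det⁻¹ * algebraMap k L ((lam : k) ^ (m + 1)))
    rw [map_mul, h10, h8, hm]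
    field_simp
    ring

end semi

section U

variable {k L : Type} [Field k] [Field L] [Algebra k L]
  {ρ : L ≃ₐ[k] L} {lam : kˣ} {a b c : kˣ}

theorem ph_add (x y : AlbL L a b c) : ph ρ lam (x + y) = ph ρ lam x + ph ρ lam y := by
  apply Alb.ext
  · simp [ph, mul_add]
  · simp [ph, mul_add]
  · simp [ph, mul_add]
  · simp [ph, omap_add, smul_add]
  · simp [ph, omap_add]
  · simp [ph, omap_add]

theorem ph_smul (t : L) (x : AlbL L a b c) : ph ρ lam (t • x) = ρ t • ph ρ lam x := by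
  apply Alb.ext
  · simp [ph, mul_left_comm]
  · simp [ph, mul_left_comm]
  · simp [ph, mul_left_comm]
  · simp only [ph, x3_smul, x1_smul, omap_smul]
    rw [smul_comm]
  · simp [ph, omap_smul]
  · simp [ph, omap_smul]

theorem omap3 (hρ3 : ∀ t : L, ρ (ρ (ρ t)) = t) (x : OctL L a b c) :
    omap ρ (omap ρ (omap ρ x)) = x := by
  apply Oct.ext8 <;> exact hρ3 _

theorem ph3 (hρ3 : ∀ t : L, ρ (ρ (ρ t)) = t) (x : AlbL L a b c) :
    ph ρ lam (ph ρ lam (ph ρ lam x)) = algebraMap k L lam • x := by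
  have hl : ∀ σ : L ≃ₐ[k] L, σ (up L lam : L) = (up L lam : L) := fun σ => σ.commutes _
  have hli : ∀ σ : L ≃ₐ[k] L, σ (((up L lam)⁻¹ : Lˣ) : L) = ((up L lam)⁻¹ : Lˣ) := fun σ => by
    rw [Units.val_inv_eq_inv_val, map_inv₀, hl]
  have hm : ∀ t : L, (((up L lam)⁻¹ : Lˣ) : L) * ((up L lam : L) * t) = t := fun t => by
    rw [← mul_assoc, Units.inv_mul, one_mul]
  have hm' : ∀ t : L, (up L lam : L) * ((((up L lam)⁻¹ : Lˣ) : L) * t) = t := fun t => by
    rw [← mul_assoc, Units.mul_inv, one_mul]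
  have hu : (up L lam : L) = algebraMap k L lam := rfl
  rw [← hu]
  apply Alb.ext
  · simp only [ph, map_mul, hl, hli, hρ3, d1_smul, hm, hm']
  · simp only [ph, map_mul, hl, hli, hρ3, d2_smul, hm, hm']
  · simp only [ph, map_mul, hl, hli, hρ3, d3_smul, hm, hm']
  · simp only [ph, omap_smul, hl, omap3 hρ3, x1_smul]
  · simp only [ph, omap_smul, hl, omap3 hρ3, x2_smul]
  · simp only [ph, omap_smul, hl, omap3 hρ3, x3_smul]

theorem ph_mem_vsub {x : AlbL L a b c} (hx : x ∈ Vsub L a b c) : ph ρ lam x ∈ Vsub L a b c := by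
  obtain ⟨h1, h2, h3⟩ := hx
  refine ⟨?_, ?_, ?_⟩
  · change ((up L lam : L) • omap ρ x.x3).snd = 0
    rw [snd_smul]
    change (up L lam : L) • qmap ρ x.x3.snd = 0
    rw [h3, qmap_zero, smul_zero]
  · change qmap ρ x.x1.snd = 0
    rw [h1, qmap_zero]
  · change qmap ρ x.x2.snd = 0
    rw [h2, qmap_zero]

/-- The intersection of `V` and `hV` is stable. -/
theorem ph_mem_inf {h : AlbL L a b c ≃ₗ[L] AlbL L a b c} (hh : h ∈ GI ρ lam a b c)
    {x : AlbL L a b c} (hx : x ∈ (Vsub L a b c ⊓ (Vsub L a b c).map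
      (h : AlbL L a b c →ₗ[L] AlbL L a b c) : Submodule L (AlbL L a b c))) :
    ph ρ lam x ∈ (Vsub L a b c ⊓ (Vsub L a b c).map
      (h : AlbL L a b c →ₗ[L] AlbL L a b c) : Submodule L (AlbL L a b c)) := by
  obtain ⟨h1, y, hy, rfl⟩ := hx
  refine ⟨ph_mem_vsub h1, ph ρ lam y, ph_mem_vsub hy, ?_⟩
  exact hh.2 y

/-- The intersection of `V` and `hV` is closed under `x# × y#`. -/
theorem cross_mem_vsub {x y : AlbL L a b c} (hx : x ∈ Vsub L a b c) (hy : y ∈ Vsub L a b c) :
    cross x y ∈ Vsub L a b c := by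
  obtain ⟨h1, h2, h3⟩ := hx
  obtain ⟨k1, k2, k3⟩ := hy
  refine ⟨?_, ?_, ?_⟩
  · simp [cross, snd_mul, h1, h2, h3, k1, k2, k3]
  · simp [cross, snd_mul, h1, h2, h3, k1, k2, k3]
  · simp [cross, snd_mul, h1, h2, h3, k1, k2, k3]

theorem adj_mem_vsub {x : AlbL L a b c} (hx : x ∈ Vsub L a b c) : adj x ∈ Vsub L a b c := by
  obtain ⟨h1, h2, h3⟩ := hx
  refine ⟨?_, ?_, ?_⟩
  · simp [adj, snd_mul, h1, h2, h3]
  · simp [adj, snd_mul, h1, h2, h3]
  · simp [adj, snd_mul, h1, h2, h3]

theorem mem_inf_of_cross [CharZero L] {h : AlbL L a b c ≃ₗ[L] AlbL L a b c}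
    (hh : ∀ x, cub (h x) = cub x) {x y : AlbL L a b c}
    (hx : x ∈ (Vsub L a b c ⊓ (Vsub L a b c).map
      (h : AlbL L a b c →ₗ[L] AlbL L a b c) : Submodule L (AlbL L a b c)))
    (hy : y ∈ (Vsub L a b c ⊓ (Vsub L a b c).map
      (h : AlbL L a b c →ₗ[L] AlbL L a b c) : Submodule L (AlbL L a b c))) :
    cross (adj x) (adj y) ∈ (Vsub L a b c ⊓ (Vsub L a b c).map
      (h : AlbL L a b c →ₗ[L] AlbL L a b c) : Submodule L (AlbL L a b c)) := by
  obtain ⟨h1, x, hx, rfl⟩ := hx
  obtain ⟨h2, y, hy, rfl⟩ := hy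
  refine ⟨cross_mem_vsub (adj_mem_vsub h1) (adj_mem_vsub h2), cross (adj x) (adj y),
    cross_mem_vsub (adj_mem_vsub hx) (adj_mem_vsub hy), ?_⟩
  exact (cross_adj hh x y).symm

/-- **The dimension** of `V ∩ hV`. -/
theorem finrank_U [CharZero k] (H : Hyp ρ lam a b c) {h : AlbL L a b c ≃ₗ[L] AlbL L a b c}
    (hh : h ∈ GI ρ lam a b c) :
    3 ≤ Module.finrank L (Vsub L a b c ⊓ (Vsub L a b c).map
      (h : AlbL L a b c →ₗ[L] AlbL L a b c) : Submodule L (AlbL L a b c)) ∧
    3 ∣ Module.finrank L (Vsub L a b c ⊓ (Vsub L a b c).map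
      (h : AlbL L a b c →ₗ[L] AlbL L a b c) : Submodule L (AlbL L a b c)) := by
  refine ⟨three_le h, ?_⟩
  refine three_dvd H.h3 H.hρ H.hlam (fun x => ⟨ph ρ lam x, ph_mem_inf hh x.2⟩) ?_ ?_ ?_
  · intro x y
    exact Subtype.ext (ph_add _ _)
  · intro t x
    exact Subtype.ext (ph_smul _ _)
  · intro x
    exact Subtype.ext (ph3 (rho3 H.h3 H.hρ) _)

/-- **Isotropic vectors**: a subspace of `V` of dimension at least six contains an isotropic vector
of the cubic norm. -/
theorem exists_iso (hab : Aniso (up L a) (up L b)) (U : Submodule L (AlbL L a b c))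
    (hU : U ≤ Vsub L a b c) (h6 : 6 ≤ Module.finrank L U) : ∃ S ∈ U, S ≠ 0 ∧ Alb.cub S = 0 :=
  exists_iso' hab U (fun _ hx => hU hx) h6

end U

end Vale.Agent.P011.E6I
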